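import Vale.Agent.P144X.P.Asm
import Vale.Agent.P144S.Nice

/-!
The limits for the plus and minus boundary conditions do not depend on the directions of the
energies.
-/

namespace Vale.Agent.P144X.P

open Filter Topology Vale.Agent.P144 Vale.Agent.P144Q Vale.Agent.P144S Vale.Agent.P144Z

/-- The limits do not change when one energy is turned. -/
def TN (D : Set ℂ) (E : Fam) : Prop := ∀ p, Good D p → ∀ k, ∃ c, ∀ e, Lim E (upd p k e) c

/-- From one energy to all. -/
theorem TN.all {D : Set ℂ} {E : Fam} (h : TN D E) {p : Pts} (hp : Good D p) {c : ℝ}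
    (hc : Lim E p c) (j' : Fin p.m → Fin 2) : Lim E { p with j := j' } c := by
  have key : ∀ T : Finset (Fin p.m),
      Lim E { p with j := fun k => if k ∈ T then j' k else p.j k } c := by
    intro T
    induction T using Finset.induction_on with
    | empty => simpa using hc
    | insert k T hk ih =>
      obtain ⟨c', h'⟩ := h { p with j := fun k => if k ∈ T then j' k else p.j k } hp k
      have h1 := h' (if k ∈ T then j' k else p.j k)
      have h2 := h' (j' k)
      unfold upd at h1 h2
      dsimp only at h1 h2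
      have e1 : Function.update (fun k => if k ∈ T then j' k else p.j k) k
          (if k ∈ T then j' k else p.j k) = fun k => if k ∈ T then j' k else p.j k :=
        Function.update_eq_self k _
      have e2 : Function.update (fun k => if k ∈ T then j' k else p.j k) k (j' k) =
          fun l => if l ∈ insert k T then j' l else p.j l := by
        funext l
        by_cases hl : l = k
        · subst hl; simp
        · simp [hl]
      rw [e1] at h1
      rw [e2, tendsto_nhds_unique h1 ih] at h2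
      exact h2
  simpa using key Finset.univ

theorem tn_minus {J : ℝ} {D : Set ℂ} (h : TN D (crit J D (some fun _ _ => true))) :
    TN D (crit J D (some fun _ _ => false)) := fun p hp k => by
  obtain ⟨c, hc⟩ := h p hp k
  refine ⟨(-1) ^ p.n * c, fun e => (Tendsto.const_mul _ (hc e)).congr fun a => ?_⟩
  exact (F.corr_rev J _ a (disc D a) (upd p k e)).symm

theorem tn_div {J R : ℝ} (hR : 0 < R) {D : Set ℂ}
    (h : TN ((fun z => z / (R : ℂ)) '' D)
      (crit J ((fun z => z / (R : ℂ)) '' D) (some fun _ _ => true))) :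
    TN D (crit J D (some fun _ _ => true)) := fun p hp k => by
  obtain ⟨c, hc⟩ := h _ (B.good_shr hR hp) k
  refine ⟨((R ^ (-(1 / 8) : ℝ)) ^ p.n * R⁻¹ ^ p.m) * c, fun e =>
    ((Tendsto.comp (hc e) (B.div_lim hR)).const_mul _).congr' ?_⟩
  filter_upwards [self_mem_nhdsWithin] with a ha
  have e1 : crit J ((fun z => z / (R : ℂ)) '' D) (some fun _ _ => true) (a / R) =
      crit J D (some fun _ _ => true) a := by
    unfold crit inDom
    rw [B.disc_div hR]
    rfl
  simp only [Function.comp, e1]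
  exact (B.corr_shr (E := crit J D (some fun _ _ => true) a)
    (B.gibbs_cmul J 0 (fun _ => 0) (Kc / J) (some fun _ => true) (disc D a)) (upd p k e) ha hR).symm

theorem tn_plus {J : ℝ} (hJ : 0 < J) {D : Set ℂ} (hl : Lip4 D) (hs : IsSimplyConnected D) :
    TN D (crit J D (some fun _ _ => true)) := by
  obtain ⟨t, R0, hsm⟩ := U.exists_small hl.2.1
  refine tn_div R0 ?_
  have h' := L.lip4_div R0 hl
  have hs' := U.sc_div R0 hs
  generalize (fun z => z / (t : ℂ)) '' D = D' at hsm h' hs'
  have h3 := L.lip3_of_lip4 h'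
  obtain ⟨Ω, rfl⟩ := V.domP D' h3 hs' hsm
  obtain ⟨Ω', hΩ'⟩ := U.dom3 (U.lip3_rc h3) (U.sc_rc hs') (U.small_rc hsm)
  obtain ⟨c, -⟩ := R.map3 h3 hs'
  have hF := L.latP _ h' ⟨c⟩
  exact fun p hp k => turn K.kw (W.pf H.sunq) hJ hF (k34P Ω _ hF)
    (F.normX K.kw K.blk (F.all (V.sand K.blk)) B.rat K.one (B.odd K.kw K.blk) hJ Ω.toDom Ω' hΩ'
      (L.out _ h3 ⟨c⟩) ⟨_, hF⟩) hp.2
    (kj (C.sbk H.sex H.slap M.scut M.ssq W.spr C.sbl) hF hp.2 k)

/-- **Independence of the directions for the plus and minus boundary conditions.** -/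
theorem jind4 {J : ℝ} (hJ : 0 < J) {D : Set ℂ} (hl : Lip4 D) (hs : IsSimplyConnected D)
    {b : Option (ℝ → Config)} (hb : b = some (fun _ _ => true) ∨ b = some fun _ _ => false)
    {p : Pts} (hp : Good D p) {c : ℝ} (hc : Lim (crit J D b) p c) (j' : Fin p.m → Fin 2) :
    Lim (crit J D b) { p with j := j' } c := by
  rcases hb with rfl | rfl
  exacts [(tn_plus hJ hl hs).all hp hc j', (tn_minus (tn_plus hJ hl hs)).all hp hc j']

/-- The result from the free case. -/
theorem jind_of {J : ℝ} (hJ : 0 < J)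
    (h0 : ∀ D : Set ℂ, L.Lip3 D → IsSimplyConnected D → ∀ p, Good D p → ∀ c,
      Lim (crit J D none) p c → ∀ j', Lim (crit J D none) { p with j := j' } c)
    {D : Set ℂ} {b : Option (ℝ → Config)} (h : Nice D b) {p : Pts} (hp : Good D p) {c : ℝ}
    (hc : Lim (crit J D b) p c) (j' : Fin p.m → Fin 2) :
    Lim (crit J D b) { p with j := j' } c := by
  obtain ⟨hs, ⟨h, hb⟩ | ⟨h, rfl⟩⟩ := h
  · have h4 : Lip4 D := by
      rcases h with h | ⟨o, bd, cv⟩ | h | ⟨h, c, hc, w⟩ | ⟨h, w⟩
      exacts [L.lip4_of_C1 h, L.lip4_of_convex o bd cv, L.lip4_of_isLip le_rfl h,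
        L.lip4_of_PC1 h fun z hz => ⟨c, hc, w z hz⟩, L.lip4_of_polygon h w]
    rcases hb with rfl | hb
    exacts [h0 D (L.lip3_of_lip4 h4) hs p hp c hc j', jind4 hJ h4 hs hb hp hc j']
  · refine h0 D ?_ hs p hp c hc j'
    rcases h with h | ⟨h | h, c, hc, w⟩
    exacts [U.lip3_of_isLip le_rfl h, U.lip3_of_PC1 h fun z hz => ⟨c, hc, w z hz⟩,
      U.lip3_of_polygon h fun z hz => ⟨c, hc, w z hz⟩]

end Vale.Agent.P144X.P
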