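import Vale.Agent.P144X.P.Ker
import Vale.Agent.P144S.F.Asm
import Vale.Agent.P144.H436.JPf

/-!
The limits for the plus boundary condition do not change when one energy is turned.
-/

set_option linter.all false

namespace Vale.Agent.P144X.P

open Filter Topology Finset Vale.Agent.P144 Vale.Agent.P144Q Vale.Agent.P144S Vale.Agent.P144S.F
open Vale.Agent.P144.AL (Cn Pf cenK sumE Pf_cons sumE_congr Pf_congr)
open Vale.Agent.P144.H170 (rM)
open Vale.Agent.P144.H436 (sumE_lin sumE_symm)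

/-- A row operation on the first two rows. -/
theorem Pf_head {α : Type} {K K' : α → α → ℝ} {o h : α} {r : List α} {τ s : ℝ} (hτ : τ * τ = 1)
    (h0 : K' o h = K o h) (h1 : ∀ y ∈ r, K' o y = τ * (s * K h y - K o y))
    (h2 : ∀ y ∈ r, K' h y = -(τ * K h y)) (h3 : ∀ x y, [x, y].Sublist r → K' x y = K x y) :
    Pf K' (o :: h :: r) = Pf K (o :: h :: r) := by
  have e : ∀ (L : α → α → ℝ) (c : ℝ) (t : List α), c * Pf L (h :: t) =
      sumE (fun z u => c * L h z * Pf L u) t := fun L c t => by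
    have h4 := sumE_lin (fun z u => L h z * Pf L u) (fun _ _ => (0 : ℝ)) c 0 t
    simp only [mul_zero, add_zero, zero_mul] at h4
    rw [Pf_cons, ← h4]
    exact sumE_congr _ fun _ _ => by ring
  rw [Pf_cons, Pf_cons, sumE, sumE, h0, Pf_congr r h3]
  congr 1
  simp only [e]
  have h5 := sumE_lin (fun y t => sumE (fun z u => K o y * K h z * Pf K u) t)
    (fun y t => sumE (fun z u => K h y * K h z * Pf K u) t) 1 (-s) r
  rw [sumE_symm (fun y z u => K h y * K h z * Pf K u) (fun y z u => by ring), mul_zero, add_zero,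
    one_mul] at h5
  rw [← h5]
  refine sumE_congr _ fun j hj => ?_
  rw [← sumE_lin]
  refine sumE_congr _ fun i hi => ?_
  have s1 := List.eraseIdx_sublist r j
  rw [h1 _ (List.getElem_mem hj), h2 _ (s1.subset (List.getElem_mem hi)),
    Pf_congr _ fun x y hxy => h3 x y ((hxy.trans (List.eraseIdx_sublist _ i)).trans s1)]
  linear_combination (-(s * K h r[j] - K o r[j]) * K h (r.eraseIdx j)[i] *
    Pf K ((r.eraseIdx j).eraseIdx i)) * hτ

/-- The entries of the Pfaffian. -/
noncomputable def ZZ (P : ℝ → Finset Site) (p : Pts) (a : ℝ) (x y : Fin p.m × Bool) : ℝ :=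
  wl p.j x * wl p.j y * (Wf (P a) (Rq p a) [cp p a x.1 x.2, cp p a y.1 y.2] -
    if x.1 = y.1 then Wf (P a) 0 [cp p a x.1 false, cp p a x.1 true] else 0) / a

/-- The spins. -/
noncomputable def XX (p : Pts) : Finset ℂ := univ.image p.x

/-- The correlations as Pfaffians. -/
theorem corr_eq (hK : SKW) (hP : SPf) {J : ℝ} (hJ : 0 < J) {D : Set ℂ} {P : ℝ → Finset Site}
    (hF : FamP D P) {p : Pts} (hp : Good0 D p) {s : List (Fin p.m)} (hsn : s.Nodup)
    (hs : ∀ k, k ∈ s) : ∀ᶠ a in 𝓝[>] (0 : ℝ),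
      corr a (pl J (P a)) p = GP J P (XX p) a * Pf (ZZ P p a) (lb s) := by
  have hx : Function.Injective p.x := fun i i' h => Sum.inl_injective (hp.2.2 (by simpa using h))
  have hy : Function.Injective p.y := fun i i' h => Sum.inr_injective (hp.2.2 (by simpa using h))
  have hpr : ∀ f : Fin p.m → ℝ, (s.map f).prod = ∏ k, f k := fun f => by
    rw [← List.prod_toFinset f hsn]
    congr 1
    exact eq_univ_of_forall fun k => List.mem_toFinset.2 (hs k)
  have hsm : ∀ f : Fin p.m → ℝ, (s.map f).sum = ∑ k, f k := fun f => by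
    rw [← List.sum_toFinset f hsn]
    congr 1
    exact eq_univ_of_forall fun k => List.mem_toFinset.2 (hs k)
  set t : ℝ → Fin p.m → ℝ := fun a k => sj (p.j k) * Wf (P a) 0 [cp p a k false, cp p a k true]
    with ht
  have e1 : ∀ᶠ a in 𝓝[>] (0 : ℝ), ∀ k l, k ≠ l →
      fl a (p.y k) + dir (p.j k) ≠ fl a (p.y l) + dir (p.j l) := by
    refine eventually_all.2 fun k => eventually_all.2 fun l => ?_
    by_cases hkl : k = l
    · simp [hkl]
    · filter_upwards [H170.ev_ne_add AL.idt (AL.flt (p.y k)) (AL.flt (p.y l))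
        (fun h => hkl (hy h)) (dir (p.j l) - dir (p.j k))] with a ha _ e
      exact ha (by rw [← add_sub_assoc, ← e, add_sub_cancel_right])
  have e2 : ∀ᶠ a in 𝓝[>] (0 : ℝ), ∀ k, fl a (p.y k) + dir (p.j k) ∈ P a := by
    refine eventually_all.2 fun k => ?_
    filter_upwards [hF.1.deep AL.idt (hp.2.1 k) (AL.flt _) 1] with a ha
    refine ha _ ?_ ?_ <;> unfold dir <;> split_ifs <;> simp
  filter_upwards [e1, e2, hF.2, self_mem_nhdsWithin] with a h1 h2 h3 h4
  have ha : 0 < a := h4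
  have e3 : Pf (ZZ P p a) (lb s) = Pf (fun x y => (√a)⁻¹ * (√a)⁻¹ *
      cenK (F.KK (P a) (Rq p a) (fun k => fl a (p.y k)) p.j) (fun k => (k, false))
        (fun k => (k, true)) (t a) s x y) (lb s) := by
    refine Pf_congr _ ?_
    rintro ⟨k, b⟩ ⟨l, b'⟩ h
    rw [← mul_inv, Real.mul_self_sqrt ha.le]
    unfold ZZ cenK
    rw [hsm, div_eq_inv_mul]
    congr 1
    rcases sub_lb hsn h with h | ⟨h, hb, hb'⟩
    · rw [if_neg h, sum_eq_zero fun q _ => ?_, sub_zero, sub_zero]
      · rfl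
      refine if_neg fun h' => h ?_
      exact (Prod.ext_iff.1 h'.1).1.trans (Prod.ext_iff.1 h'.2).1.symm
    · simp only at h hb hb'
      subst h hb hb'
      simp only [Prod.mk.injEq, and_true, and_self, sum_ite_eq, mem_univ, if_true, F.KK, wl, ht, cl,
        cp, Bool.false_eq_true, if_false]
      ring
  have e4 : ((lb s).map fun _ => (√a)⁻¹).prod = a⁻¹ ^ p.m := by
    rw [lb_prod, ← mul_inv, Real.mul_self_sqrt ha.le, hpr]
    simp
  have e5 : (XX p).val.map (fl a) = Rq p a := by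
    unfold Rq rM XX
    rw [image_val_of_injOn hx.injOn, Multiset.map_map]
    rfl
  have e6 : a ^ (-((XX p).card : ℝ) / 8) = (a ^ (-(1 / 8) : ℝ)) ^ p.n := by
    unfold XX
    rw [← Real.rpow_natCast, ← Real.rpow_mul ha.le, card_image_of_injective _ hx, card_univ,
      Fintype.card_fin]
    congr 1
    ring
  rw [e3, AL.Pf_scale _ (fun _ => (√a)⁻¹) _ (lb_even s), e4]
  unfold corr GP
  simp only [mean hK hJ h3]
  have e7 : (fun σ : Config => (∏ i, a ^ (-(1 / 8) : ℝ) * sp (σ (fl a (p.x i)))) *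
      ∏ k, a⁻¹ * (sp (σ (fl a (p.y k))) * sp (σ (fl a (p.y k) + dir (p.j k))) -
        sj (p.j k) * Wf (P a) 0 [ce (fl a (p.y k)) (p.j k) false,
          ce (fl a (p.y k)) (p.j k) true])) =
      fun σ => ((a ^ (-(1 / 8) : ℝ)) ^ p.n * a⁻¹ ^ p.m) *
        (((Rq p a).map fun x => sp (σ x)).prod * (s.map fun k => sp (σ (fl a (p.y k))) *
          sp (σ (fl a (p.y k) + dir (p.j k))) - t a k).prod) := by
    funext σ
    have e : ((Rq p a).map fun x => sp (σ x)).prod = ∏ i, sp (σ (fl a (p.x i))) := by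
      unfold Rq rM
      rw [Multiset.map_map]
      rfl
    rw [e, prod_mul_distrib, prod_mul_distrib, prod_const, prod_const, card_univ, card_univ,
      Fintype.card_fin, Fintype.card_fin, hpr]
    simp only [ht, cp]
    ring
  rw [e7, e5, e6]
  unfold pl
  rw [B.gibbs_cmul]
  have e8 := mixed hK hP hJ h3 h1 h2 (Rq p a) hsn (t a)
  unfold pl at e8
  rw [e8]
  ring

/-- The entries converge. -/
theorem ZZ_lim {P : ℝ → Finset Site} {p : Pts} (k3 : K3P P p) (k4 : K4P P p)
    {s : List (Fin p.m)} (hsn : s.Nodup) : ∃ L : Fin p.m × Bool → Fin p.m × Bool → ℝ, ∀ x y,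
      [x, y].Sublist (lb s) → Tendsto (fun a => ZZ P p a x y) (𝓝[>] 0) (𝓝 (L x y)) := by
  have hl : ∀ x y : Fin p.m × Bool, ∃ c : ℝ, [x, y].Sublist (lb s) →
      Tendsto (fun a => ZZ P p a x y) (𝓝[>] 0) (𝓝 c) := by
    rintro ⟨k, b⟩ ⟨l, b'⟩
    by_cases hkl : k = l
    · subst hkl
      obtain ⟨c, hc⟩ := k4 k
      refine ⟨wl p.j (k, b) * wl p.j (k, b') * c, fun h => ?_⟩
      obtain ⟨-, rfl, rfl⟩ := (sub_lb hsn h).resolve_left (by simp)
      refine (hc.const_mul _).congr fun a => ?_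
      unfold ZZ
      rw [if_pos rfl, mul_div_assoc]
    · obtain ⟨c, hc⟩ := k3 k l hkl b b'
      refine ⟨wl p.j (k, b) * wl p.j (l, b') * c, fun _ => (hc.const_mul _).congr fun a => ?_⟩
      unfold ZZ
      rw [if_neg hkl, sub_zero, mul_div_assoc]
  choose L hL using hl
  exact ⟨L, hL⟩

/-- Change of one direction. -/
abbrev upd (p : Pts) (k : Fin p.m) (e : Fin 2) : Pts :=
  ⟨p.n, p.m, p.x, p.y, Function.update p.j k e⟩

section

variable {P : ℝ → Finset Site} {p : Pts} {k : Fin p.m}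

theorem ZZ_rest (e e' : Fin 2) (a : ℝ) {x y : Fin p.m × Bool} (hx : x.1 ≠ k) (hy : y.1 ≠ k) :
    ZZ P (upd p k e) a x y = ZZ P (upd p k e') a x y := by
  unfold ZZ wl cp
  simp only [Function.update_of_ne hx, Function.update_of_ne hy]
  rfl

theorem ZZ_row (e : Fin 2) (a : ℝ) (b : Bool) {y : Fin p.m × Bool} (hy : k ≠ y.1) :
    ZZ P (upd p k e) a (k, b) y =
      (if b then sj e else 1) * wl p.j y * TK P p k e b y.1 y.2 a := by
  unfold ZZ wl cp TK cp
  simp only [Function.update_of_ne hy.symm, Function.update_self, if_neg hy, sub_zero]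
  rw [mul_div_assoc]
  rfl

theorem ZZ_self (e : Fin 2) (a : ℝ) :
    ZZ P (upd p k e) a (k, false) (k, true) = sj e * DK P p k e a := by
  unfold ZZ wl cp DK
  simp only [Function.update_self, if_true, Bool.false_eq_true, if_false, one_mul]
  rw [mul_div_assoc]
  rfl

end

/-- **One energy is turned.** -/
theorem turn (hK : SKW) (hP : SPf) {J : ℝ} (hJ : 0 < J) {D : Set ℂ} {P : ℝ → Finset Site}
    (hF : FamP D P) (hk : ∀ p, Good0 D p → K3P P p ∧ K4P P p)
    (hn : ∀ X : Finset ℂ, (∀ z ∈ X, z ∈ D) → NormX J D X) {p : Pts} (hp : Good0 D p)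
    {k : Fin p.m} (hj : KJ P p k) :
    ∃ c, ∀ e, Lim (fun a => pl J (P a)) (upd p k e) c := by
  obtain ⟨g, -, hg⟩ := hn (XX p) fun z hz => by
    obtain ⟨i, -, rfl⟩ := mem_image.1 hz
    exact hp.1 i
  have hg := hg P hF
  set r := (univ.erase k).toList with hr
  have hkr : k ∉ r := by simp [hr]
  have hsn : (k :: r).Nodup := List.nodup_cons.2 ⟨hkr, nodup_toList _⟩
  have hs : ∀ l, l ∈ k :: r := fun l => by
    by_cases h : l = k <;> simp [hr, h]
  have hne : ∀ y ∈ lb r, y.1 ≠ k := fun y hy h => hkr (h ▸ mem_lb hy)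
  have hL := fun e => ZZ_lim (hk (upd p k e) hp).1 (hk (upd p k e) hp).2 hsn
  choose L hL using hL
  obtain ⟨⟨τ, hτ, h3⟩, c, c0, c1⟩ := hj
  have s0 : sj 0 = 1 := by simp [sj]
  have s1 : sj 1 = -1 := by simp [sj]
  have row : ∀ e b, ∀ y ∈ lb r, ∀ c, Tendsto (TK P p k e b y.1 y.2) (𝓝[>] 0) (𝓝 c) →
      L e (k, b) y = (if b then sj e else 1) * wl p.j y * c := by
    intro e b y hy c hc
    refine tendsto_nhds_unique (hL e _ _ ?_) ((hc.const_mul _).congr fun a =>
      (ZZ_row e a b (hne y hy).symm).symm)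
    rw [lb_cons]
    cases b
    · exact (List.singleton_sublist.2 (List.mem_cons_of_mem _ hy)).cons_cons _
    · exact ((List.singleton_sublist.2 hy).cons_cons _).cons _
  have slf : ∀ e c, Tendsto (DK P p k e) (𝓝[>] 0) (𝓝 c) →
      L e (k, false) (k, true) = sj e * c := by
    intro e c hc
    refine tendsto_nhds_unique (hL e _ _ ?_) ((hc.const_mul _).congr fun a => (ZZ_self e a).symm)
    rw [lb_cons]
    exact ((List.nil_sublist _).cons_cons _).cons_cons _
  have hPf : Pf (L 1) (lb (k :: r)) = Pf (L 0) (lb (k :: r)) := by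
    rw [lb_cons]
    refine Pf_head (s := √2) hτ ?_ (fun y hy => ?_) (fun y hy => ?_) fun x y hxy => ?_
    · rw [slf 0 _ c0, slf 1 _ c1, s0, s1]; ring
    · obtain ⟨cA, cB, t1, t2, t3, t4⟩ := h3 y.1 (hne y hy).symm y.2
      rw [row 0 _ y hy _ t1, row 0 _ y hy _ t2, row 1 _ y hy _ t3, s0]
      simp only [Bool.false_eq_true, if_false, if_true]
      ring
    · obtain ⟨cA, cB, t1, t2, t3, t4⟩ := h3 y.1 (hne y hy).symm y.2
      rw [row 0 _ y hy _ t2, row 1 _ y hy _ t4, s0, s1]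
      simp only [if_true]
      ring
    · have h1 : [x, y].Sublist (lb (k :: r)) := by
        rw [lb_cons]
        exact (hxy.cons _).cons _
      exact tendsto_nhds_unique (hL 1 _ _ h1) ((hL 0 _ _ h1).congr fun a =>
        ZZ_rest 0 1 a (hne x (hxy.subset (by simp))) (hne y (hxy.subset (by simp))))
  refine ⟨g * Pf (L 0) (lb (k :: r)), fun e => ?_⟩
  have h1 : Pf (L 0) (lb (k :: r)) = Pf (L e) (lb (k :: r)) := by
    obtain rfl | rfl : e = 0 ∨ e = 1 := by omega
    exacts [rfl, hPf.symm]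
  rw [h1]
  refine (hg.mul (AL.Pf_tendsto _ (L e) _ (hL e))).congr' ?_
  filter_upwards [corr_eq hK hP hJ hF (p := upd p k e) hp hsn hs] with a ha
  exact ha.symm

end Vale.Agent.P144X.P
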