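import Vale.Agent.P144S.C.K3

/-!
The limits of the kernel on the graph of the cells: dependence on the direction of an energy.
-/

set_option linter.all false

namespace Vale.Agent.P144X.P

open Finset Vale.Agent.P144 Vale.Agent.P144S Vale.Agent.P144S.C Filter Topology
open Vale.Agent.P144.H170 (Pt pt rM RS VS Mk gs phA phB phC notMem_Mk of_xlim phA_apply phB_apply
  phC_apply)
open Vale.Agent.P144.H135 (eA eB eC eE rz gr sg0 F0 w0 v0 PKr gr_sq gr_eq seq_nf exists_ker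
  rM_empty)
open Vale.Agent.P144Q (Dom Fam0 Good0 Appr)
open Vale.Agent.P144Q.C (Geo BLim Pos geo_of nM_of blim_unique)

/-- The kernel between a corner of the energy `k` in the direction `j` and another energy. -/
noncomputable def TK (P : ℝ → Finset Site) (p : Pts) (k : Fin p.m) (j : Fin 2) (b : Bool)
    (l : Fin p.m) (b' : Bool) (a : ℝ) : ℝ :=
  Wf (P a) (Rq p a) [ce (fl a (p.y k)) j b, cp p a l b'] / a

/-- The centred kernel between the two corners of the energy `k` in the direction `j`. -/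
noncomputable def DK (P : ℝ → Finset Site) (p : Pts) (k : Fin p.m) (j : Fin 2) (a : ℝ) : ℝ :=
  (Wf (P a) (Rq p a) [ce (fl a (p.y k)) j false, ce (fl a (p.y k)) j true] -
    Wf (P a) 0 [ce (fl a (p.y k)) j false, ce (fl a (p.y k)) j true]) / a

/-- The relations between the limits for the two directions. -/
def KJ (P : ℝ → Finset Site) (p : Pts) (k : Fin p.m) : Prop :=
  (∃ τ : ℝ, τ * τ = 1 ∧ ∀ l, k ≠ l → ∀ b', ∃ cA cB : ℝ,
    Tendsto (TK P p k 0 false l b') (𝓝[>] 0) (𝓝 cB) ∧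
    Tendsto (TK P p k 0 true l b') (𝓝[>] 0) (𝓝 cA) ∧
    Tendsto (TK P p k 1 false l b') (𝓝[>] 0) (𝓝 (τ * (√2 * cA - cB))) ∧
    Tendsto (TK P p k 1 true l b') (𝓝[>] 0) (𝓝 (τ * cA))) ∧
  ∃ c : ℝ, Tendsto (DK P p k 0) (𝓝[>] 0) (𝓝 c) ∧ Tendsto (DK P p k 1) (𝓝[>] 0) (𝓝 (-c))

theorem ph_sum (w : ℂ) : phC w = √2 * phA w - phB w := by
  rw [phA_apply, phB_apply, phC_apply]
  have h2 : √2 * √2 = 2 := Real.mul_self_sqrt (by norm_num)
  have h0 : √2 ≠ 0 := by positivity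
  field_simp
  linear_combination (-w.re) * h2

theorem ce0f (z : ℂ) (a : ℝ) : ce (fl a z) 0 false = cw z 0 (1, 0) a := by
  unfold ce cw dir; simp
theorem ce0t (z : ℂ) (a : ℝ) : ce (fl a z) 0 true = cw z (1, 0) (0, 0) a := by
  unfold ce cw dir
  simp only [if_true]
  congr 1
  ext <;> simp
theorem ce1f (z : ℂ) (a : ℝ) : ce (fl a z) 1 false = cw z 0 (0, 1) a := by
  unfold ce cw dir; simp
theorem ce1t (z : ℂ) (a : ℝ) : ce (fl a z) 1 true = cw z (0, 1) (0, 0) a := by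
  unfold ce cw dir
  simp only [if_true, one_ne_zero, if_false]
  congr 1
  ext <;> simp

variable {Ω : Dom} {P : ℝ → Finset Site}

/-- The limits of the kernel at the target. -/
theorem tgt {κ : Type} [Fintype κ] {ζ : κ → ℂ} (hL : Fam0 Ω.D P) {z : ℂ} (w : Site)
    {S' : κ → Prop} (hS' : z ∈ VS S' F0 ζ w0) {z' : ℂ} (hz : z ∈ (Ω.D \ {z'}) \ Mk ζ w0)
    {c : ℝ → AL.Cn} {U : Filter ℝ} (hU : U ≤ 𝓝[>] 0) {δ : ℝ} {S : κ → Prop}
    {QA QB QC QE : Pt → ℝ} {κ0 : ℂ} {q Y : ℂ → ℂ}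
    (hB : BLim Ω U (fun a => a) (rz ζ) ζ c z' δ
      (fun a => kA (P a) (fun i => rz ζ i a) (c a)) (fun a => kB (P a) (fun i => rz ζ i a) (c a))
      (fun a => kC (P a) (fun i => rz ζ i a) (c a)) (fun a => kE (P a) (fun i => rz ζ i a) (c a))
      S QA QB QC QE κ0 q Y) :
    Tendsto (fun a : ℝ => gr S' (fun i => rz ζ i a) (((fl a z).1 : ℝ) + (w.1 + 1 / 4)) *
      (a⁻¹ * (sg0 S (fun i => rz ζ i a) (c a) *
        Wf (P a) (rM fun i => rz ζ i a) [cw z w (0, 0) a, c a]))) U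
      (𝓝 (phA (q z / RS S' F0 ζ w0 z))) ∧
    Tendsto (fun a : ℝ => gr S' (fun i => rz ζ i a) (((fl a z).1 : ℝ) + (w.1 + 3 / 4)) *
      (a⁻¹ * (sg0 S (fun i => rz ζ i a) (c a) *
        Wf (P a) (rM fun i => rz ζ i a) [cw z w (1, 0) a, c a]))) U
      (𝓝 (phB (q z / RS S' F0 ζ w0 z))) ∧
    Tendsto (fun a : ℝ => gr S' (fun i => rz ζ i a) (((fl a z).1 : ℝ) + (w.1 + 1 / 4)) *
      (a⁻¹ * (sg0 S (fun i => rz ζ i a) (c a) *
        Wf (P a) (rM fun i => rz ζ i a) [cw z w (0, 1) a, c a]))) U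
      (𝓝 (phC (q z / RS S' F0 ζ w0 z))) := by
  have hr : ∀ i, Tendsto (fun a => pt a (rz ζ i a)) U (𝓝 (ζ i)) :=
    fun i => (AL.flt (ζ i)).mono_left hU
  have eg : ∀ (a s : ℝ), gs S' F0 (fun i => rz ζ i a) (fun q => v0 q a)
      (((fl a z + w).1 : ℝ) + s) = gr S' (fun i => rz ζ i a) (((fl a z).1 : ℝ) + (w.1 + s)) := by
    intro a s
    rw [gr_eq]
    congr 1
    simp only [Prod.fst_add]
    push_cast
    ring
  refine ⟨?_, ?_, ?_⟩
  · have h1 := (of_xlim (v := v0) (ω := w0) hU hr (fun q => q.elim) hS' (Or.inl rfl) _ _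
      (X := fun k x => k⁻¹ * (sg0 S (fun i => rz ζ i k) (c k) *
        eA (c k) (kA (P k) (fun i => rz ζ i k) (c k)) x))
      (hB.slim.A _ hz)).comp (seq_nf ((flw z w).mono_left hU))
    refine h1.congr' ?_
    filter_upwards [(in_ev hL hz.1.1 w).filter_mono hU] with a ha
    simp only [Function.comp_apply]
    rw [eA_Wf _ _ _ (cnr_Vx ha (by simp [AL.mem_cnr])), eg]
    have e0 : cw z w (0, 0) a = (fl a z + w, fl a z + w) := by
      unfold cw; congr 1; ext <;> simp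
    rw [e0]
  · have h1 := (of_xlim (v := v0) (ω := w0) hU hr (fun q => q.elim) hS' (Or.inr rfl) _ _
      (X := fun k x => k⁻¹ * (sg0 S (fun i => rz ζ i k) (c k) *
        eB (c k) (kB (P k) (fun i => rz ζ i k) (c k)) x))
      (hB.slim.B _ hz)).comp (seq_nf ((flw z w).mono_left hU))
    refine h1.congr' ?_
    filter_upwards [(in_ev hL hz.1.1 w).filter_mono hU] with a ha
    simp only [Function.comp_apply]
    rw [eB_Wf _ _ _ (cnr_Vx ha (by simp [AL.mem_cnr])), eg]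
    have e0 : cw z w (1, 0) a = (((fl a z + w).1 + 1, (fl a z + w).2), fl a z + w) := by
      unfold cw; congr 1; ext <;> simp
    rw [e0]
  · have h1 := (of_xlim (v := v0) (ω := w0) hU hr (fun q => q.elim) hS' (Or.inl rfl) _ _
      (X := fun k x => k⁻¹ * (sg0 S (fun i => rz ζ i k) (c k) *
        eC (c k) (kC (P k) (fun i => rz ζ i k) (c k)) x))
      (hB.slim.C _ hz)).comp (seq_nf ((flw z w).mono_left hU))
    refine h1.congr' ?_
    filter_upwards [(in_ev hL hz.1.1 w).filter_mono hU] with a ha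
    simp only [Function.comp_apply]
    rw [eC_Wf _ _ _ (cnr_Vx ha (by simp [AL.mem_cnr])), eg]
    have e0 : cw z w (0, 1) a = (((fl a z + w).1, (fl a z + w).2 + 1), fl a z + w) := by
      unfold cw; congr 1; ext <;> simp
    rw [e0]

theorem fix_sign {U : Filter ℝ} {g g' W : ℝ → ℝ} {σ σ' c : ℝ} (h1 : σ * σ = 1) (h2 : σ' * σ' = 1)
    (e1 : ∀ᶠ a in U, g a = σ) (e2 : ∀ᶠ a in U, g' a = σ')
    (h : Tendsto (fun a : ℝ => g a * (a⁻¹ * (g' a * W a))) U (𝓝 c)) :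
    Tendsto (fun a : ℝ => W a / a) U (𝓝 (σ * σ' * c)) := by
  refine (h.const_mul (σ * σ')).congr' ?_
  filter_upwards [e1, e2] with a g1 g2
  rw [g1, g2, div_eq_mul_inv]
  linear_combination (a⁻¹ * W a * (σ' * σ')) * h1 + (a⁻¹ * W a) * h2

/-- **Two energies.** -/
theorem k3 (hb : SBk) {Ω : DomP} (hL : FamP Ω.D P) {p : Pts} (hp : Good0 Ω.D p) (k : Fin p.m) :
    ∃ τ : ℝ, τ * τ = 1 ∧ ∀ l, k ≠ l → ∀ b', ∃ cA cB : ℝ,
    Tendsto (TK P p k 0 false l b') (𝓝[>] 0) (𝓝 cB) ∧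
    Tendsto (TK P p k 0 true l b') (𝓝[>] 0) (𝓝 cA) ∧
    Tendsto (TK P p k 1 false l b') (𝓝[>] 0) (𝓝 (τ * (√2 * cA - cB))) ∧
    Tendsto (TK P p k 1 true l b') (𝓝[>] 0) (𝓝 (τ * cA)) := by
  have hzM := nM_of (Ω := Ω.toDom) hp k
  obtain ⟨S', S'', hS'⟩ := H170.exists_pattern (ζ := p.x) (ω := w0) (z := p.y k)
    (notMem_Mk.1 hzM).1 (fun q => q.elim)
  have e'' : S'' = F0 := funext fun q => q.elim
  rw [e''] at hS'
  obtain ⟨σ1, hσ1, e1⟩ := gr_ev S' p.x (p.y k) (3 / 4)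
  obtain ⟨σ2, hσ2, e2⟩ := gr_ev S' p.x (p.y k) (1 / 4)
  refine ⟨σ1 * σ2, by linear_combination (σ2 * σ2) * hσ1 + hσ2, fun l hkl b' => ?_⟩
  obtain ⟨w1, u1, h1, cy⟩ := cp_eq p l b'
  obtain ⟨δ, G⟩ := geo_of (Ω := Ω.toDom) hp l
  obtain ⟨S, hS⟩ := G.pat hL.1
  obtain ⟨QA, QB, QC, QE, κ0, K⟩ := exists_ker u1 (cnr_of h1)
  have hz : p.y k ∈ (Ω.D \ {p.y l}) \ Mk p.x w0 :=
    ⟨⟨hp.2.1 k, fun h => hkl (Sum.inr_injective (hp.2.2 (by simpa using h)))⟩, hzM⟩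
  obtain ⟨σ', hσ', eσ'⟩ := gr_ev S p.x (p.y l) (w1.1 + if u1.1 = 0 then 1 / 4 else 3 / 4)
  have e3 : ∀ᶠ a in 𝓝[>] (0 : ℝ), sg0 S (fun i => rz p.x i a) (cw (p.y l) w1 u1 a) = σ' :=
    eσ'.mono fun a ha => by rw [sg0_cw, ha]
  have hU0 := Ultrafilter.of_le (𝓝[>] (0 : ℝ))
  obtain ⟨q, Y, hB⟩ := hb Ω P hL _ _ _ _ G _ hU0 w1 u1 (cnr_of h1) _ _ _ _ _ K S hS
  set Q := q (p.y k) / RS S' F0 p.x w0 (p.y k) with hQ
  have key : ∀ (V : Ultrafilter ℝ) (_ : (V : Filter ℝ) ≤ 𝓝[>] 0),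
      Tendsto (TK P p k 0 false l b') V (𝓝 (σ1 * σ' * phB Q)) ∧
      Tendsto (TK P p k 0 true l b') V (𝓝 (σ1 * σ' * phA Q)) ∧
      Tendsto (TK P p k 1 false l b') V (𝓝 (σ2 * σ' * phC Q)) ∧
      Tendsto (TK P p k 1 true l b') V (𝓝 (σ2 * σ' * phA Q)) := by
    intro V hV
    obtain ⟨q', Y', hB'⟩ := hb Ω P hL _ _ _ _ G V hV w1 u1 (cnr_of h1) _ _ _ _ _ K S hS
    obtain ⟨hq, -⟩ := blim_unique (posw G hL.1 hU0 w1 u1) hS hB hB'
    rw [hQ, hq _ hz.1.1 hz.1.2]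
    unfold TK
    simp only [ce0f, ce0t, ce1f, ce1t, cy, Rq_eq]
    refine ⟨fix_sign hσ1 hσ' ?_ (e3.filter_mono hV) (tgt (Ω := Ω.toDom) hL.1 0 hS' hz hV hB').2.1,
      fix_sign hσ1 hσ' ?_ (e3.filter_mono hV) (tgt (Ω := Ω.toDom) hL.1 (1, 0) hS' hz hV hB').1,
      fix_sign hσ2 hσ' ?_ (e3.filter_mono hV) (tgt (Ω := Ω.toDom) hL.1 0 hS' hz hV hB').2.2,
      fix_sign hσ2 hσ' ?_ (e3.filter_mono hV) (tgt (Ω := Ω.toDom) hL.1 (0, 1) hS' hz hV hB').1⟩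
    · filter_upwards [e1.filter_mono hV] with a ha
      rw [← ha, Prod.fst_zero, Int.cast_zero, zero_add]
    · filter_upwards [e1.filter_mono hV] with a ha
      rw [← ha, Int.cast_one, gr_edge]
    · filter_upwards [e2.filter_mono hV] with a ha
      rw [← ha, Prod.fst_zero, Int.cast_zero, zero_add]
    · filter_upwards [e2.filter_mono hV] with a ha
      rw [← ha, Int.cast_zero, zero_add]
  refine ⟨σ1 * σ' * phA Q, σ1 * σ' * phB Q,
    (tendsto_iff_ultrafilter _ _ _).2 fun V hV => (key V hV).1,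
    (tendsto_iff_ultrafilter _ _ _).2 fun V hV => (key V hV).2.1,
    (tendsto_iff_ultrafilter _ _ _).2 fun V hV => ?_,
    (tendsto_iff_ultrafilter _ _ _).2 fun V hV => ?_⟩
  · have e : σ1 * σ2 * (√2 * (σ1 * σ' * phA Q) - σ1 * σ' * phB Q) = σ2 * σ' * phC Q := by
      rw [ph_sum]
      linear_combination (σ2 * σ' * (√2 * phA Q - phB Q)) * hσ1
    rw [e]
    exact (key V hV).2.2.1
  · have e : σ1 * σ2 * (σ1 * σ' * phA Q) = σ2 * σ' * phA Q := by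
      linear_combination (σ2 * σ' * phA Q) * hσ1
    rw [e]
    exact (key V hV).2.2.2

/-- The limits at the source. -/
theorem src (hb : SBk) {Ω : DomP} (hL : FamP Ω.D P) {κ : Type} [Fintype κ] {ζ : κ → ℂ} {z : ℂ}
    {δ : ℝ} (hz : z ∈ Ω.D) (G : Geo Ω.toDom ζ z δ) {QA QB QC QE : Pt → ℝ} {κ0 : ℂ}
    (K : PKr (0, 0) QA QB QC QE κ0) : ∃ y : ℂ,
    Tendsto (fun a : ℝ => a⁻¹ * (AL.ep (fl a z, fl a z) (fl a z, fl a z) - QA 0)) (𝓝[>] 0)
      (𝓝 (phA y)) ∧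
    Tendsto (fun a : ℝ => a⁻¹ * (Wf (P a) (rM fun i => rz ζ i a)
      [ce (fl a z) 0 false, ce (fl a z) 0 true] - QB (-(1, 0)))) (𝓝[>] 0) (𝓝 (phB y)) ∧
    Tendsto (fun a : ℝ => a⁻¹ * (Wf (P a) (rM fun i => rz ζ i a)
      [ce (fl a z) 1 false, ce (fl a z) 1 true] - QC (-(0, 1)))) (𝓝[>] 0) (𝓝 (phC y)) := by
  obtain ⟨S, hS⟩ := G.pat hL.1
  have h00 : ((0, 0) : Site) ∈ AL.cnr 0 := cnr_of (Or.inl rfl)
  have hδ := G.δ0
  have hzo : z ∈ Metric.ball z (24 * δ) := Metric.mem_ball_self (by positivity)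
  have hin : ∀ᶠ a in 𝓝[>] (0:ℝ), fl a z ∈ P a := Appr.mem AL.idt hL.1 hz (AL.flt _)
  have hU0 := Ultrafilter.of_le (𝓝[>] (0 : ℝ))
  obtain ⟨q, Y, hB⟩ := hb Ω P hL _ _ _ _ G _ hU0 0 _ h00 _ _ _ _ _ K S hS
  have e2 : ∀ (w : Site) (a : ℝ), fl a z - (cw z w (0, 0) a).2 = -w := fun w a => by
    unfold cw; simp
  refine ⟨Y z, (tendsto_iff_ultrafilter _ _ _).2 fun V hV => ?_,
    (tendsto_iff_ultrafilter _ _ _).2 fun V hV => ?_,
    (tendsto_iff_ultrafilter _ _ _).2 fun V hV => ?_⟩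
  · obtain ⟨q', Y', hB'⟩ := hb Ω P hL _ _ _ _ G V hV 0 _ h00 _ _ _ _ _ K S hS
    obtain ⟨-, hY⟩ := blim_unique (posw G hL.1 hU0 0 (0, 0)) hS hB hB'
    rw [hY _ hzo]
    refine ((hB'.A _ hzo).comp (seq_nf ((AL.flt z).mono_left hV))).congr' ?_
    filter_upwards [hin.filter_mono hV] with a ha
    simp only [Function.comp_apply]
    have e1 : cw z 0 (0, 0) a = (fl a z, fl a z) := by
      unfold cw; congr 1 <;> ext <;> simp
    rw [eA_Wf _ _ _ (cnr_Vx ha (by simp [AL.mem_cnr])), sg0_cw, e2, ← mul_assoc, if_pos rfl,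
      Prod.fst_zero, Int.cast_zero, zero_add, gr_sq, one_mul, e1, Wf_two', src_one', mul_one,
      neg_zero]
  · obtain ⟨q', Y', hB'⟩ := hb Ω P hL _ _ _ _ G V hV (1, 0) _ h00 _ _ _ _ _ K S hS
    obtain ⟨-, hY⟩ := blim_unique (posw G hL.1 hU0 0 (0, 0)) hS hB hB'
    rw [hY _ hzo]
    refine ((hB'.B _ hzo).comp (seq_nf ((AL.flt z).mono_left hV))).congr' ?_
    filter_upwards [hin.filter_mono hV] with a ha
    simp only [Function.comp_apply]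
    have e1 : ce (fl a z) 0 false = (((fl a z).1 + 1, (fl a z).2), fl a z) := by
      unfold ce dir
      simp only [Bool.false_eq_true, if_false, if_true]
      congr 1
      ext <;> simp
    rw [eB_Wf _ _ _ (cnr_Vx ha (by simp [AL.mem_cnr])), sg0_cw, e1, ce0t, e2, ← mul_assoc,
      if_pos rfl, Int.cast_one, gr_edge, gr_sq, one_mul]
  · obtain ⟨q', Y', hB'⟩ := hb Ω P hL _ _ _ _ G V hV (0, 1) _ h00 _ _ _ _ _ K S hS
    obtain ⟨-, hY⟩ := blim_unique (posw G hL.1 hU0 0 (0, 0)) hS hB hB'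
    rw [hY _ hzo]
    refine ((hB'.C _ hzo).comp (seq_nf ((AL.flt z).mono_left hV))).congr' ?_
    filter_upwards [hin.filter_mono hV] with a ha
    simp only [Function.comp_apply]
    have e1 : ce (fl a z) 1 false = (((fl a z).1, (fl a z).2 + 1), fl a z) := by
      unfold ce dir
      simp only [Bool.false_eq_true, if_false, one_ne_zero]
      congr 1
      ext <;> simp
    rw [eC_Wf _ _ _ (cnr_Vx ha (by simp [AL.mem_cnr])), sg0_cw, e1, ce1t, e2, ← mul_assoc,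
      if_pos rfl, Int.cast_zero, zero_add, gr_sq, one_mul]

/-- **The two corners of an energy.** -/
theorem k4 (hb : SBk) {Ω : DomP} (hL : FamP Ω.D P) {p : Pts} (hp : Good0 Ω.D p) (k : Fin p.m) :
    ∃ c : ℝ, Tendsto (DK P p k 0) (𝓝[>] 0) (𝓝 c) ∧ Tendsto (DK P p k 1) (𝓝[>] 0) (𝓝 (-c)) := by
  obtain ⟨δ, G⟩ := geo_of (Ω := Ω.toDom) hp k
  obtain ⟨QA, QB, QC, QE, κ0, K⟩ := exists_ker (0, 0) (cnr_of (Or.inl rfl))
  obtain ⟨y, a1, b1, c1⟩ := src hb hL (hp.2.1 k) G K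
  obtain ⟨y0, a0, b0, c0⟩ := src hb hL (hp.2.1 k) G.empty K
  have hA := tendsto_nhds_unique a1 a0
  have e : -(phB y - phB y0) = phC y - phC y0 := by
    rw [ph_sum, ph_sum, hA]; ring
  refine ⟨phB y - phB y0, (b1.sub b0).congr fun a => ?_, ?_⟩
  · unfold DK
    rw [rM_empty, Rq_eq]
    ring
  · rw [e]
    refine (c1.sub c0).congr fun a => ?_
    unfold DK
    rw [rM_empty, Rq_eq]
    ring

theorem kj (hb : SBk) {Ω : DomP} (hL : FamP Ω.D P) {p : Pts} (hp : Good0 Ω.D p) (k : Fin p.m) :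
    KJ P p k := ⟨k3 hb hL hp k, k4 hb hL hp k⟩

end Vale.Agent.P144X.P
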